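import Crest.Agent.N250.Wt.Base
import Crest.Agent.N250.Lp.Lin
import Crest.Agent.N250.Mt.PR
import Crest.Agent.N250.Lg.Jac

-- ▼ part N250/Sw/Alg
section

/-!
# Row 250 (helper73): explicit solutions of the Jacobi operator of a shrinker
-/

set_option autoImplicit false
set_option linter.unusedSectionVars false

noncomputable section

namespace Crest.Agent.N250.Mov.IsHyp

open Crest.Agent.N222

variable {R : Type} [CommRing R] [Algebra ℝ R] {ι : Type} [Fintype ι] [DecidableEq ι]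
  {S : Mov R ι} (H : S.IsHyp)

theorem half_two : algebraMap ℝ R (1 / 2) * 2 = 1 := by
  have : (2 : R) = algebraMap ℝ R 2 := (map_ofNat (algebraMap ℝ R) 2).symm
  rw [this, ← map_mul]; norm_num

theorem LL_def (S : Mov R ι) (f : R) : S.LL f =
    S.lap f - algebraMap ℝ R (1 / 2) * S.dr f + algebraMap ℝ R (1 / 2) * f + S.a2 * f := by
  simp only [Mov.LL, Mov.Mi, Mov.Pi, Nat.cast_zero]; ring

include H

theorem dr_add' (f g : R) : S.dr (f + g) = S.dr f + S.dr g := by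
  simp only [Mov.dr, H.add, mul_add, Finset.sum_add_distrib]

theorem dr_mul' (f g : R) : S.dr (f * g) = f * S.dr g + S.dr f * g := by
  simp only [Mov.dr, H.mul, Finset.mul_sum, Finset.sum_mul, ← Finset.sum_add_distrib]
  exact Finset.sum_congr rfl fun a _ => by ring

theorem lap_add' (f g : R) : S.lap (f + g) = S.lap f + S.lap g := by
  simp only [Pre.lap, H.add, Finset.sum_add_distrib]

theorem lap_mul' (f g : R) : S.lap (f * g) = f * S.lap g + 2 * S.gam f g + S.lap f * g := by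
  simp only [Pre.lap, Pre.gam, H.add, H.mul, Finset.mul_sum, Finset.sum_mul,
    ← Finset.sum_add_distrib]
  exact Finset.sum_congr rfl fun a _ => by ring

theorem LL_add (f g : R) : S.LL (f + g) = S.LL f + S.LL g := by
  simp only [LL_def, H.dr_add', H.lap_add']; ring

theorem LL_zero : S.LL 0 = 0 := by
  have := H.LL_add 0 0
  rw [add_zero] at this
  exact left_eq_add.1 this

theorem LL_neg (f : R) : S.LL (-f) = -S.LL f := by
  have := H.LL_add f (-f)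
  rw [add_neg_cancel, H.LL_zero] at this
  exact (neg_eq_of_add_eq_zero_right this.symm).symm

theorem LL_sub (f g : R) : S.LL (f - g) = S.LL f - S.LL g := by
  rw [sub_eq_add_neg, H.LL_add, H.LL_neg, sub_eq_add_neg]


/-- product rule -/
theorem LL_mul (f g : R) : S.LL (f * g) =
    f * S.LL g + 2 * S.gam f g + (S.lap f - algebraMap ℝ R (1 / 2) * S.dr f) * g := by
  simp only [LL_def, H.dr_mul', H.lap_mul']; ring




theorem dr_x (b : ι) : S.dr (S.x b) = S.x b - S.xn * S.n b := by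
  have := H.P_apply S.x b
  simp only [Mov.dr, Mov.xn]
  rw [show ∑ a, S.x a * S.D a (S.x b) = ∑ a, S.P b a * S.x a from
    Finset.sum_congr rfl fun a _ => by rw [H.symm b a, Pre.P, mul_comm], this]
  simp only [mul_comm]

theorem dr_n (hs : S.xn = 2 * S.h) (a : ι) : S.dr (S.n a) = 2 * S.D a S.h := by
  have h1 := H.D_xn a
  rw [hs, H.mul, H.toIsDS.D_two] at h1
  rw [Mov.dr, show ∑ c, S.x c * S.D c (S.n a) = ∑ b, S.B a b * S.x b from
    Finset.sum_congr rfl fun c _ => by rw [H.B_symm a c, Mov.B, mul_comm], ← h1]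
  ring

/-- `L n = n / 2` -/
theorem LL_n (hs : S.xn = 2 * S.h) (a : ι) :
    S.LL (S.n a) = algebraMap ℝ R (1 / 2) * S.n a := by
  rw [LL_def, H.lap_n, H.dr_n hs]
  linear_combination (-S.D a S.h) * (half_two (R := R))

/-- `(Δ - x·∇/2) x = -x / 2` -/
theorem L0_x (hs : S.xn = 2 * S.h) (b : ι) :
    S.lap (S.x b) - algebraMap ℝ R (1 / 2) * S.dr (S.x b) =
      -(algebraMap ℝ R (1 / 2) * S.x b) := by
  rw [H.lap_x, H.dr_x, hs]
  linear_combination (S.h * S.n b) * (half_two (R := R))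

theorem LL_xn' (hs : S.xn = 2 * S.h) (a b : ι) : S.LL (S.x b * S.n a) = 2 * S.B b a := by
  rw [H.LL_mul, H.LL_n hs, H.L0_x hs, H.gam_comm, H.gam_x, Mov.B]; ring

/-- rotations give Jacobi fields -/
theorem LL_rot (hs : S.xn = 2 * S.h) (a b : ι) :
    S.LL (S.x b * S.n a - S.x a * S.n b) = 0 := by
  rw [H.LL_sub, H.LL_xn' hs, H.LL_xn' hs, H.B_symm a b, sub_self]






end Crest.Agent.N250.Mov.IsHyp

end
end

-- ▼ part N250/Lp/Rot

/-!
# Row 250 (helper27): rotation fields in the polar chart, growth, uniqueness of Jacobi fields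
-/

set_option autoImplicit false
open Set Filter Topology
open scoped ContDiff

noncomputable section

namespace Crest.Agent.N250.Lp

open Crest.Agent.N222 Gc Po WS Cj

variable {X : Type} [TopologicalSpace X] [MeasurableSpace X] {G : Geo X}

/-! ### rotation fields -/

/-- `⟨T x, n⟩` -/
def JT (G : Geo X) (T : Fin 3 → Fin 3 → ℂ) : G.SmC :=
  ∑ a, ∑ b, T a b • (G.SC.x b * G.SC.n a)

theorem JT_val (T : Fin 3 → Fin 3 → ℂ) (p : X) :
    (JT G T).1 p = dot (nC G p) fun a => dot (T a) (cx (G.M.x p)) := by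
  change ev G p (JT G T) = _
  simp only [JT, map_sum, Algebra.smul_def, map_mul, dot, Finset.mul_sum]
  refine Finset.sum_congr rfl fun a _ => Finset.sum_congr rfl fun b _ => ?_
  change T a b * (cx (G.M.x p) b * nC G p a) = _
  ring

theorem LL_JT {T : Fin 3 → Fin 3 → ℂ} (hT : ∀ a b, T a b = -T b a) : G.SC.LL (JT G T) = 0 := by
  have e : (2 : ℂ) • JT G T = ∑ a, ∑ b, T a b • (G.SC.x b * G.SC.n a - G.SC.x a * G.SC.n b) := by
    simp only [smul_sub, Finset.sum_sub_distrib]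
    rw [Finset.sum_comm (f := fun a b => T a b • (G.SC.x a * G.SC.n b)), two_smul, sub_eq_add_neg,
      ← Finset.sum_neg_distrib]
    refine congrArg _ (Finset.sum_congr rfl fun a _ => ?_)
    rw [← Finset.sum_neg_distrib]
    exact Finset.sum_congr rfl fun b _ => by rw [hT a b, neg_smul]
  have h : (2 : ℂ) • G.SC.LL (JT G T) = 0 := by
    rw [← G.LL_smul, e, ← G.LLL_apply]
    simp only [map_sum, map_smul, Geo.LLL_apply, G.hypC.LL_rot G.shrC, smul_zero,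
      Finset.sum_const_zero]
  exact (smul_eq_zero.1 h).resolve_left two_ne_zero

/-- the infinitesimal rotation that tilts the axis `f 0` towards `β₀ f 1 + β₁ f 2` -/
def tilt (f : Fin 3 → Fin 3 → ℂ) (β : Fin 2 → ℂ) (a b : Fin 3) : ℂ :=
  (β 0 * f 1 a + β 1 * f 2 a) * f 0 b - f 0 a * (β 0 * f 1 b + β 1 * f 2 b)

theorem tilt_skew (f : Fin 3 → Fin 3 → ℂ) (β : Fin 2 → ℂ) (a b : Fin 3) :
    tilt f β a b = -tilt f β b a := by simp only [tilt]; ring

/-- `⟨β, ω⟩` -/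
def bo (β : Fin 2 → ℂ) (θ : ℝ) : ℂ := β 0 * Real.cos θ + β 1 * Real.sin θ

/-- `⟨β, ω'⟩` -/
def bo' (β : Fin 2 → ℂ) (θ : ℝ) : ℂ := β 1 * Real.cos θ - β 0 * Real.sin θ

theorem tilt_frC {f : Fin 3 → Fin 3 → ℂ} (h : On f) (β : Fin 2 → ℂ) (θ : ℝ) (x r : ℂ) :
    (fun a => dot (tilt f β a) (frC f θ x r 0)) =
      frC f θ (-(r * bo β θ)) (x * bo β θ) (x * bo' β θ) := by
  have e0 : f 0 = frC f θ 1 0 0 := funext fun i => by simp [frC]
  have e1 : ∀ i, β 0 * f 1 i + β 1 * f 2 i = frC f θ 0 (bo β θ) (bo' β θ) i := fun i => by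
    simp only [frC, bo, bo']
    linear_combination -(β 0 * f 1 i + β 1 * f 2 i) * cs θ
  have h0 : dot (f 0) (frC f θ x r 0) = x := by rw [e0, h.dot_frC]; ring
  have h1 : dot (frC f θ 0 (bo β θ) (bo' β θ)) (frC f θ x r 0) = bo β θ * r := by
    rw [h.dot_frC]; ring
  funext a
  have : dot (tilt f β a) (frC f θ x r 0) = frC f θ 0 (bo β θ) (bo' β θ) a *
      dot (f 0) (frC f θ x r 0) - f 0 a * dot (frC f θ 0 (bo β θ) (bo' β θ)) (frC f θ x r 0) := by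
    simp only [tilt, e1, dot, Fin.sum_univ_three]; ring
  rw [this, h0, h1]
  simp only [frC]; ring

/-- the tilt field in the unknown `v` -/
def dR (r : ℝ × ℝ → ℝ) (β : Fin 2 → ℂ) (y : ℝ × ℝ) : ℂ :=
  y.1 * (r y * bo β y.2 - (d2 r y : ℝ) * bo' β y.2) + r y ^ 2 * (d1 r y : ℝ) * bo β y.2

variable {ψ : ℝ × ℝ → X} {Q : N222.E (Fin 3) ≃ₗᵢ[ℝ] N222.E (Fin 3)} {r : ℝ × ℝ → ℝ} {q : ℝ × ℝ}

theorem Pl.tau_tilt (h : Pl G ψ Q r q) (β : Fin 2 → ℂ) :
    tau G ψ Q r q * (JT G (tilt (fQ Q) β)).1 (ψ q) = dR r β q := by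
  rw [JT_val, h.eq.self_of_nhds, pX_eq, cx_fr, Complex.ofReal_zero, tilt_frC (on_fQ Q), h.tau_n, dR]
  ring



/-! ### growth -/

/-- the end is asymptotic to the cylinder in `C¹` -/
def As (r : ℝ × ℝ → ℝ) : Prop := ∀ δ : ℝ, 0 < δ → ∃ s : ℝ, ∀ y : ℝ × ℝ, s < y.1 →
  |r y - √2| ≤ δ ∧ |d1 r y| ≤ δ ∧ |d2 r y| ≤ δ

theorem as_of_lim (h : ∀ (k : ℕ) (δ : ℝ), 0 < δ → ∃ s₀ : ℝ, ∀ q : ℝ × ℝ, s₀ < q.1 →
    ‖iteratedFDeriv ℝ k (fun q => r q - √2) q‖ ≤ δ) : As r := fun δ hδ => by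
  obtain ⟨s0, h0⟩ := h 0 δ hδ
  obtain ⟨s1, h1⟩ := h 1 δ hδ
  refine ⟨max s0 s1, fun y hy => ?_⟩
  have a0 := h0 y ((le_max_left _ _).trans_lt hy)
  have a1 := h1 y ((le_max_right _ _).trans_lt hy)
  rw [norm_iteratedFDeriv_zero] at a0
  rw [norm_iteratedFDeriv_one, fderiv_sub_const] at a1
  exact ⟨a0, ((fderiv ℝ r y).le_opNorm _).trans (by simpa using a1),
    ((fderiv ℝ r y).le_opNorm _).trans (by simpa using a1)⟩

theorem as_of_ends {S : Mv} (e : Ends S) (j : Fin e.p) : As (e.r j) := as_of_lim (e.lim j)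

theorem norm_bo_le (β : Fin 2 → ℂ) (θ : ℝ) : ‖bo β θ‖ ≤ 2 * ‖β‖ ∧ ‖bo' β θ‖ ≤ 2 * ‖β‖ := by
  have k : ∀ i (t : ℝ), |t| ≤ 1 → ‖β i * t‖ ≤ ‖β‖ := fun i t ht => by
    rw [norm_mul, Complex.norm_real]
    exact (mul_le_of_le_one_right (norm_nonneg _) ht).trans (norm_le_pi_norm β i)
  constructor
  · exact (norm_add_le _ _).trans (by
      linarith [k 0 _ (Real.abs_cos_le_one θ), k 1 _ (Real.abs_sin_le_one θ)])
  · exact (norm_sub_le _ _).trans (by
      linarith [k 1 _ (Real.abs_cos_le_one θ), k 0 _ (Real.abs_sin_le_one θ)])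

theorem sqrt2_bd : 1.4 < √2 ∧ √2 < 1.5 :=
  ⟨Real.lt_sqrt_of_sq_lt (by norm_num), (Real.sqrt_lt' (by norm_num)).2 (by norm_num)⟩

/-- the leading term of the tilt field -/
theorem dR_sub {δ : ℝ} {y : ℝ × ℝ} (hδ : δ ≤ 1 / 2) (hy : 1 ≤ y.1) (h0 : |r y - √2| ≤ δ)
    (h1 : |d1 r y| ≤ δ) (h2 : |d2 r y| ≤ δ) (β : Fin 2 → ℂ) :
    ‖dR r β y - y.1 * ((√2 : ℝ) * bo β y.2)‖ ≤ 12 * δ * ‖β‖ * y.1 := by
  obtain ⟨b1, b2⟩ := norm_bo_le β y.2
  have e : dR r β y - y.1 * ((√2 : ℝ) * bo β y.2) = ((y.1 * (r y - √2) + r y ^ 2 * d1 r y : ℝ) : ℂ) *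
      bo β y.2 - ((y.1 * d2 r y : ℝ) : ℂ) * bo' β y.2 := by
    rw [dR]; push_cast; ring
  have d0 : 0 ≤ δ := (abs_nonneg _).trans h0
  have r2 : r y ^ 2 ≤ 4 := by
    have := abs_le.1 h0
    have := sqrt2_bd
    nlinarith
  have a1 : |y.1 * (r y - √2) + r y ^ 2 * d1 r y| ≤ 5 * δ * y.1 := by
    refine (abs_add_le _ _).trans ?_
    rw [abs_mul, abs_mul, abs_of_nonneg (by linarith : 0 ≤ y.1), abs_of_nonneg (sq_nonneg (r y))]
    have := mul_le_mul r2 h1 (abs_nonneg _) (by norm_num)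
    have := mul_le_mul_of_nonneg_left h0 (by linarith : 0 ≤ y.1)
    nlinarith
  have a2 : |y.1 * d2 r y| ≤ δ * y.1 := by
    rw [abs_mul, abs_of_nonneg (by linarith : 0 ≤ y.1), mul_comm δ]
    exact mul_le_mul_of_nonneg_left h2 (by linarith)
  rw [e]
  refine (norm_sub_le _ _).trans ?_
  rw [norm_mul, norm_mul, Complex.norm_real, Complex.norm_real]
  have c1 := mul_le_mul a1 b1 (norm_nonneg _) (by positivity)
  have c2 := mul_le_mul a2 b2 (norm_nonneg _) (by positivity)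
  change |_| * _ + |_| * _ ≤ _
  linarith

theorem As.dR_le (h : As r) : ∃ s : ℝ, ∀ (β : Fin 2 → ℂ) (y : ℝ × ℝ), s < y.1 →
    ‖dR r β y‖ ≤ 9 * ‖β‖ * y.1 := by
  obtain ⟨s, hs⟩ := h (1 / 2) (by norm_num)
  refine ⟨max s 1, fun β y hy => ?_⟩
  obtain ⟨h0, h1, h2⟩ := hs y ((le_max_left _ _).trans_lt hy)
  have y1 : 1 ≤ y.1 := (le_max_right _ _).trans hy.le
  have a := dR_sub le_rfl y1 h0 h1 h2 β
  have b := norm_le_norm_sub_add (dR r β y) (y.1 * ((√2 : ℝ) * bo β y.2))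
  rw [norm_mul, norm_mul, Complex.norm_real, Complex.norm_real, Real.norm_of_nonneg (by linarith),
    Real.norm_of_nonneg (Real.sqrt_nonneg 2)] at b
  have c := mul_le_mul sqrt2_bd.2.le (norm_bo_le β y.2).1 (norm_nonneg _) (by norm_num)
  have := mul_le_mul_of_nonneg_left c (by linarith : 0 ≤ y.1)
  linarith

theorem As.le_dR (h : As r) : ∃ s : ℝ, ∀ (β : Fin 2 → ℂ) (x : ℝ), s < x →
    ∃ θ, ‖β‖ * x ≤ ‖dR r β (x, θ)‖ := by
  obtain ⟨s, hs⟩ := h (1 / 30) (by norm_num)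
  refine ⟨max s 1, fun β x hx => ?_⟩
  have x1 : 1 ≤ x := (le_max_right _ _).trans hx.le
  obtain ⟨θ, hθ⟩ : ∃ θ, ‖β‖ ≤ ‖bo β θ‖ := by
    rcases le_total ‖β 0‖ ‖β 1‖ with h1 | h1
    · exact ⟨Real.pi / 2, (pi_norm_le_iff_of_nonneg (norm_nonneg _)).2
        (Fin.forall_fin_two.2 (by simpa [bo] using h1))⟩
    · exact ⟨0, (pi_norm_le_iff_of_nonneg (norm_nonneg _)).2
        (Fin.forall_fin_two.2 (by simpa [bo] using h1))⟩
  obtain ⟨h0, h1, h2⟩ := hs (x, θ) ((le_max_left _ _).trans_lt hx)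
  have a := dR_sub (by norm_num) (y := (x, θ)) x1 h0 h1 h2 β
  have b := norm_le_norm_add_norm_sub' ((x : ℂ) * ((√2 : ℝ) * bo β θ)) (dR r β (x, θ))
  rw [norm_sub_rev, norm_mul, norm_mul, Complex.norm_real, Complex.norm_real,
    Real.norm_of_nonneg (by linarith), Real.norm_of_nonneg (Real.sqrt_nonneg 2)] at b
  have c := mul_le_mul sqrt2_bd.1.le hθ (norm_nonneg _) (Real.sqrt_nonneg 2)
  have := mul_le_mul_of_nonneg_left c (by linarith : 0 ≤ x)
  exact ⟨θ, by simp only at a; linarith⟩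

/-- a tilt field that is `o(x)` vanishes -/
theorem As.eq_zero (h : As r) {β : Fin 2 → ℂ}
    (hb : ∀ ε : ℝ, 0 < ε → ∃ s : ℝ, ∀ y : ℝ × ℝ, s < y.1 → ‖dR r β y‖ ≤ ε * y.1) : β = 0 := by
  by_contra h0
  have h1 := norm_pos_iff.2 h0
  obtain ⟨s, hs⟩ := h.le_dR
  obtain ⟨s', hs'⟩ := hb (‖β‖ / 2) (by positivity)
  obtain ⟨x, h2, h3, h4⟩ := ((eventually_gt_atTop s).and ((eventually_gt_atTop s').and
    (eventually_gt_atTop (0 : ℝ)))).exists
  obtain ⟨θ, hθ⟩ := hs β x h2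
  have := hs' (x, θ) h3
  nlinarith


/-- independence of a superlinear field and the tilt fields modulo `o(x)` -/
theorem As.indep (h : As r) {J : ℝ × ℝ → ℂ} {a : ℂ} {β : Fin 2 → ℂ}
    (hJ : ∀ M s : ℝ, ∃ y : ℝ × ℝ, s < y.1 ∧ M * y.1 ≤ ‖J y‖)
    (hb : ∀ ε : ℝ, 0 < ε → ∃ s : ℝ, ∀ y : ℝ × ℝ, s < y.1 → ‖a * J y + dR r β y‖ ≤ ε * y.1) :
    a = 0 ∧ β = 0 := by
  have ha : a = 0 := by
    by_contra h0
    have h1 := norm_pos_iff.2 h0
    obtain ⟨s, hs⟩ := h.dR_le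
    obtain ⟨s', hs'⟩ := hb 1 one_pos
    obtain ⟨y, h2, h3⟩ := hJ ((9 * ‖β‖ + 2) / ‖a‖) (max (max s s') 0)
    simp only [max_lt_iff] at h2
    have h4 := hs β y h2.1.1
    have h5 := hs' y h2.1.2
    have h6 := norm_sub_le (a * J y + dR r β y) (dR r β y)
    rw [add_sub_cancel_right, norm_mul] at h6
    rw [div_mul_eq_mul_div, div_le_iff₀ h1] at h3
    nlinarith [h2.2]
  exact ⟨ha, h.eq_zero (by simpa [ha] using hb)⟩


theorem As.indep' (h : As r) {J : ℝ × ℝ → ℂ} {a : ℂ} {β : Fin 2 → ℂ} (hJ : Lg.Unb J)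
    (hb : Lg.Lo fun y => a * J y + dR r β y) : a = 0 ∧ β = 0 :=
  h.indep (fun M s => (hJ M (s + 1)).imp fun _ hy => ⟨by linarith [hy.1], hy.2.le⟩)
    fun ε hε => (hb ε hε).imp fun _ hs y hy => hs y hy.le


theorem dR_smul (c : ℂ) (β : Fin 2 → ℂ) (y : ℝ × ℝ) : dR r (c • β) y = c * dR r β y := by
  simp only [dR, bo, bo', Pi.smul_apply, smul_eq_mul]; ring



/-! ### uniqueness -/



end Crest.Agent.N250.Lp

end
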