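import Crest.Agent.N250.Lp.Lin
import Crest.Agent.N250.Ch.Op
import Crest.Agent.N250.Em.UB

/-!
# Row 250 (helper27): second order operators and `√(2 v)` as functions of the 2-jet
-/

set_option autoImplicit false
open Set Filter Topology
open scoped ContDiff

noncomputable section

namespace Crest.Agent.N250.Lp

open Crest.GeometryTopology.MCF (E)
open Po WS EC Em

/-! ### jets of order at most two -/

theorem exists_jt {j : ℕ} (hj : j ≤ 2) (m : Fin j → ℝ × ℝ) : ∃ L : (Fin 6 → ℂ) →L[ℂ] ℂ,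
    ∀ (g : ℝ × ℝ → ℂ) (y : ℝ × ℝ), ContDiffAt ℝ 2 g y → jt j m g y = L (jet g y) := by
  have sp : ∀ (T : ℝ × ℝ →L[ℝ] ℂ) (w : ℝ × ℝ), T w = w.1 * T (1, 0) + w.2 * T (0, 1) := fun T w => by
    rw [← Complex.real_smul, ← Complex.real_smul, ← map_smul, ← map_smul, ← map_add]
    simp
  let π : Fin 6 → (Fin 6 → ℂ) →L[ℂ] ℂ := fun i => ContinuousLinearMap.proj i
  interval_cases j
  · exact ⟨π 0, fun g y _ => rfl⟩
  · refine ⟨((m 0).1 : ℂ) • π 1 + ((m 0).2 : ℂ) • π 2, fun g y _ => ?_⟩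
    rw [jt, iteratedFDeriv_one_apply, sp]
    rfl
  · refine ⟨((m 0).1 * (m 1).1 : ℂ) • π 3 + ((m 0).1 * (m 1).2 + (m 0).2 * (m 1).1 : ℂ) • π 4 +
      ((m 0).2 * (m 1).2 : ℂ) • π 5, fun g y hg => ?_⟩
    have e : ∀ w, fderiv ℝ (fderiv ℝ g) y (m 0) w = (m 0).1 * fderiv ℝ (fderiv ℝ g) y (1, 0) w +
        (m 0).2 * fderiv ℝ (fderiv ℝ g) y (0, 1) w := fun w =>
      sp ((fderiv ℝ (fderiv ℝ g) y).flip w) (m 0)
    have h11 : d1 (d1 g) y = _ := fd_fd hg (1, 0) (1, 0)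
    have h12 : d1 (d2 g) y = _ := fd_fd hg (1, 0) (0, 1)
    have h21 : d2 (d1 g) y = _ := fd_fd hg (0, 1) (1, 0)
    have h22 : d2 (d2 g) y = _ := fd_fd hg (0, 1) (0, 1)
    rw [jt, iteratedFDeriv_two_apply, e, sp _ (m 1), sp (fderiv ℝ (fderiv ℝ g) y (0, 1)) (m 1),
      ← h11, ← h12, ← h21, ← h22, d21 hg]
    change _ = (_ : ℂ) * d1 (d1 g) y + (_ : ℂ) * d1 (d2 g) y + (_ : ℂ) * d2 (d2 g) y
    ring

variable {X : Type} [TopologicalSpace X] [MeasurableSpace X] {G : Geo X} {Q : E ≃ₗᵢ[ℝ] E}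
  {I : Set ℝ} {K : Set X} {T : (ℝ × ℝ → ℂ) → G.SmC}

/-- the value of a second order operator at a point is a linear form of the 2-jet -/
theorem op_jet (Z : Zn G Q I K) (h : Op G Q I K 2 T) (p : X) : ∃ L : (Fin 6 → ℂ) →L[ℂ] ℂ,
    ∀ g, Ok I g → (T g).1 p = L (jet g (cr G Q p)) := by
  by_cases hp : p ∈ K
  swap
  · exact ⟨0, fun g hg => h.sp hg p hp⟩
  induction h with
  | one c hc j hj m =>
    obtain ⟨L, hL⟩ := exists_jt hj m
    refine ⟨c.1 p • L, fun g hg => ?_⟩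
    rw [Z.lift_apply hc (hg.jt Z.opn j m), hL g _ (hg.cdAt' Z.opn (Z.mem p hp) 2)]
    rfl
  | add _ _ h h' =>
    obtain ⟨L, hL⟩ := h
    obtain ⟨L', hL'⟩ := h'
    exact ⟨L + L', fun g hg => by rw [add_apply, ← hL g hg, ← hL' g hg]; rfl⟩
  | congr _ e h =>
    obtain ⟨L, hL⟩ := h
    exact ⟨L, fun g hg => by rw [e g hg, hL g hg]⟩

/-! ### the jet of `√(2 v)` -/

/-- division in the algebra of jets: `jm a (jd a b) = b` -/
def jd (a b : Fin 6 → ℂ) : Fin 6 → ℂ :=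
  let c0 := b 0 / a 0
  let c1 := (b 1 - a 1 * c0) / a 0
  let c2 := (b 2 - a 2 * c0) / a 0
  ![c0, c1, c2, (b 3 - 2 * a 1 * c1 - a 3 * c0) / a 0,
    (b 4 - a 1 * c2 - a 2 * c1 - a 4 * c0) / a 0, (b 5 - 2 * a 2 * c2 - a 5 * c0) / a 0]

theorem jd_jm {a : Fin 6 → ℂ} (ha : a 0 ≠ 0) (c : Fin 6 → ℂ) : jd a (jm a c) = c := by
  funext i
  induction i using fin6 <;> simp only [jd, jm] <;> simp <;> field_simp <;> ring

theorem jm_inj {a : Fin 6 → ℂ} (ha : a 0 ≠ 0) {c c' : Fin 6 → ℂ} (h : jm a c = jm a c') : c = c' := by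
  rw [← jd_jm ha c, h, jd_jm ha]

/-- the jet of `√(2 v)` from the jet of `v` -/
def Sq (j : Fin 6 → ℂ) : Fin 6 → ℂ :=
  ![sq2 (j 0), j 1 / sq2 (j 0), j 2 / sq2 (j 0), (j 3 - (j 1 / sq2 (j 0)) ^ 2) / sq2 (j 0),
    (j 4 - j 1 / sq2 (j 0) * (j 2 / sq2 (j 0))) / sq2 (j 0),
    (j 5 - (j 2 / sq2 (j 0)) ^ 2) / sq2 (j 0)]

theorem sq2_ne {v : ℂ} (hv : 0 < v.re) : sq2 v ≠ 0 := fun e => by
  have := sq2_sq v
  rw [e] at this
  have h0 : v = 0 := by linear_combination -this / 2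
  simp [h0] at hv

theorem Sq_eq {a j : Fin 6 → ℂ} (h0 : a 0 = sq2 (j 0)) (ha : a 0 ≠ 0) (h : jm a a = (2 : ℂ) • j) :
    Sq j = a := by
  have e := fun i => congrFun h i
  have e1 : a 0 * a 1 + a 1 * a 0 = 2 * j 1 := e 1
  have e2 : a 0 * a 2 + a 2 * a 0 = 2 * j 2 := e 2
  have e3 : a 0 * a 3 + 2 * a 1 * a 1 + a 3 * a 0 = 2 * j 3 := e 3
  have e4 : a 0 * a 4 + a 1 * a 2 + a 2 * a 1 + a 4 * a 0 = 2 * j 4 := e 4
  have e5 : a 0 * a 5 + 2 * a 2 * a 2 + a 5 * a 0 = 2 * j 5 := e 5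
  have k1 : j 1 / a 0 = a 1 := by rw [div_eq_iff ha]; linear_combination -e1 / 2
  have k2 : j 2 / a 0 = a 2 := by rw [div_eq_iff ha]; linear_combination -e2 / 2
  rw [Sq, ← h0, k1, k2]
  funext i
  induction i using fin6
  · rfl
  · rfl
  · rfl
  · exact (div_eq_iff ha).2 (by linear_combination -e3 / 2)
  · exact (div_eq_iff ha).2 (by linear_combination -e4 / 2)
  · exact (div_eq_iff ha).2 (by linear_combination -e5 / 2)

theorem jm_Sq {j : Fin 6 → ℂ} (hj : 0 < (j 0).re) : jm (Sq j) (Sq j) = (2 : ℂ) • j := by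
  have h := sq2_ne hj
  have h2 := sq2_sq (j 0)
  funext i
  induction i using fin6 <;> simp only [Sq, jm] <;> simp
  · linear_combination h2
  all_goals field_simp; ring

theorem isOpen_re : IsOpen {j : Fin 6 → ℂ | 0 < (j 0).re} := isOpen_lt continuous_const (by fun_prop)

theorem cdC_sq2 {v : ℂ} (hv : 0 < v.re) : ContDiffAt ℂ 1 sq2 v :=
  (DifferentiableOn.contDiffOn (s := {v : ℂ | 0 < v.re})
    (fun _ h => (sq2_diff h).differentiableWithinAt)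
    (isOpen_lt continuous_const Complex.continuous_re)).contDiffAt
    ((isOpen_lt continuous_const Complex.continuous_re).mem_nhds hv)

theorem cd_Sq {j : Fin 6 → ℂ} (hj : 0 < (j 0).re) : ContDiffAt ℂ 1 Sq j := by
  have h := sq2_ne hj
  have h1 : ContDiffAt ℂ 1 (fun j : Fin 6 → ℂ => sq2 (j 0)) j :=
    ContDiffAt.comp (g := sq2) (f := fun j : Fin 6 → ℂ => j 0) j (cdC_sq2 hj)
      (contDiffAt_apply ℂ ℂ 0 j)
  refine contDiffAt_pi.2 fun i => ?_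
  induction i using fin6 <;> simp only [Sq] <;> simp <;> fun_prop (disch := assumption)

theorem diff_Sq {j : Fin 6 → ℂ} (hj : 0 < (j 0).re) : DifferentiableAt ℂ Sq j :=
  (cd_Sq hj).differentiableAt one_ne_zero

theorem cd_sq2 {n : ℕ} {v : ℝ × ℝ → ℂ} {q : ℝ × ℝ} (hv : ContDiffAt ℝ n v q) (h : 0 < (v q).re) :
    ContDiffAt ℝ n (fun y => sq2 (v y)) q :=
  ((sq2_contDiffOn.contDiffAt ((isOpen_lt continuous_const Complex.continuous_re).mem_nhds h)).of_le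
    (by exact_mod_cast le_top)).comp q hv

theorem jet_sq2 {v : ℝ × ℝ → ℂ} {q : ℝ × ℝ} (hv : ContDiffAt ℝ 2 v q) (h : 0 < (v q).re) :
    jet (fun y => sq2 (v y)) q = Sq (jet v q) := by
  have hs := cd_sq2 (n := 2) hv h
  refine (Sq_eq rfl (sq2_ne h) ?_).symm
  rw [← jet_mul hs hs, ← jet_smul 2 hv]
  exact jet_congr (Eventually.of_forall fun y => by simp only [← sq, sq2_sq])

/-- `jm` as a continuous bilinear map -/
def jmL : (Fin 6 → ℂ) →L[ℂ] (Fin 6 → ℂ) →L[ℂ] Fin 6 → ℂ :=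
  LinearMap.toContinuousLinearMap ((LinearMap.toContinuousLinearMap : _ ≃ₗ[ℂ] _).toLinearMap ∘ₗ
    LinearMap.mk₂ ℂ jm
      (fun a a' b => funext fun i => by induction i using fin6 <;> simp [jm] <;> ring)
      (fun c a b => funext fun i => by induction i using fin6 <;> simp [jm] <;> ring)
      (fun a b b' => funext fun i => by induction i using fin6 <;> simp [jm] <;> ring)
      fun c a b => funext fun i => by induction i using fin6 <;> simp [jm] <;> ring)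


theorem hasF_jm {V : Type} [NormedAddCommGroup V] [NormedSpace ℂ V] {a b : V → Fin 6 → ℂ} {z : V}
    (ha : DifferentiableAt ℂ a z) (hb : DifferentiableAt ℂ b z) (w : V) :
    fderiv ℂ (fun y => jm (a y) (b y)) z w =
      jm (a z) (fderiv ℂ b z w) + jm (fderiv ℂ a z w) (b z) :=
  congrArg (fun T : V →L[ℂ] Fin 6 → ℂ => T w)
    (jmL.hasFDerivAt_of_bilinear ha.hasFDerivAt hb.hasFDerivAt).fderiv

theorem jm_comm (a b : Fin 6 → ℂ) : jm a b = jm b a :=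
  funext fun i => by induction i using fin6 <;> simp [jm] <;> ring

theorem jm_fd_Sq {j : Fin 6 → ℂ} (hj : 0 < (j 0).re) (w : Fin 6 → ℂ) :
    jm (Sq j) (fderiv ℂ Sq j w) = w := by
  have e : (fun j => jm (Sq j) (Sq j)) =ᶠ[𝓝 j] fun j => (2 : ℂ) • j :=
    mem_of_superset (isOpen_re.mem_nhds hj) fun _ h => jm_Sq h
  have h := hasF_jm (diff_Sq hj) (diff_Sq hj) w
  have h2 : HasFDerivAt (fun j : Fin 6 → ℂ => (2 : ℂ) • j)
      ((2 : ℂ) • ContinuousLinearMap.id ℂ _) j := (hasFDerivAt_id j).const_smul (2 : ℂ)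
  rw [e.fderiv_eq, jm_comm (fderiv ℂ Sq j w), ← two_smul ℂ, h2.fderiv] at h
  exact (smul_right_injective _ (two_ne_zero (α := ℂ)) h).symm

/-- the derivative of `Sq` : `δ √(2 v) = δ v / √(2 v)` -/
theorem fd_Sq {v d : ℝ × ℝ → ℂ} {q : ℝ × ℝ} (hv : ContDiffAt ℝ 2 v q) (h : 0 < (v q).re)
    (hd : ContDiffAt ℝ 2 d q) :
    fderiv ℂ Sq (jet v q) (jet d q) = jet (fun y => d y / sq2 (v y)) q := by
  have hs := cd_sq2 (n := 2) hv h
  have hi : ContDiffAt ℝ 2 (fun y => d y / sq2 (v y)) q :=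
    (hd.mul (hs.inv (sq2_ne h))).congr_of_eventuallyEq
      (Eventually.of_forall fun _ => div_eq_mul_inv _ _)
  refine jm_inj (a := Sq (jet v q)) (sq2_ne h) ?_
  rw [jm_fd_Sq h, ← jet_sq2 hv h, ← jet_mul hs hi]
  refine jet_congr ?_
  filter_upwards [hs.continuousAt.eventually_ne (sq2_ne h)] with y hy
  rw [mul_div_cancel₀ _ hy]

theorem sq2_vS {r : ℝ × ℝ → ℝ} {y : ℝ × ℝ} (h : 0 < r y) : sq2 (vS r y) = r y := by
  rw [← sq2_ofReal h.le, vS]; push_cast; rfl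

theorem re_vS {r : ℝ × ℝ → ℝ} {y : ℝ × ℝ} (h : 0 < r y) : 0 < (vS r y).re := by
  have : vS r y = ((r y ^ 2 / 2 : ℝ) : ℂ) := by rw [vS]; push_cast; rfl
  rw [this, Complex.ofReal_re]; positivity

theorem fd_Sq_vS {r : ℝ × ℝ → ℝ} {d : ℝ × ℝ → ℂ} {q : ℝ × ℝ} (hr : ContDiffAt ℝ 2 r q)
    (h : 0 < r q) (hd : ContDiffAt ℝ 2 d q) :
    fderiv ℂ Sq (jet (vS r) q) (jet d q) = jet (fun y => d y / r y) q := by
  rw [fd_Sq (v := vS r) (((cd_ofReal hr).pow 2).div_const 2) (re_vS h) hd]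
  refine jet_congr ?_
  filter_upwards [hr.continuousAt.eventually (lt_mem_nhds h)] with y hy
  rw [sq2_vS hy]

theorem ok_sq2 (hI : IsOpen I) {v : ℝ × ℝ → ℂ} (hv : Ok I v)
    (h : ∀ y : ℝ × ℝ, y.1 ∈ I → 0 < (v y).re) : Ok I fun y => sq2 (v y) :=
  ⟨fun y hy => ((sq2_contDiffOn.contDiffAt ((isOpen_lt continuous_const
    Complex.continuous_re).mem_nhds (h y hy.1))).comp y (hv.cdAt hI hy.1)).contDiffWithinAt,
    fun s θ => by simp only [hv.per s θ]⟩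

theorem ok_div (hI : IsOpen I) {d s : ℝ × ℝ → ℂ} (hd : Ok I d) (hs : Ok I s)
    (h : ∀ y : ℝ × ℝ, y.1 ∈ I → s y ≠ 0) : Ok I fun y => d y / s y :=
  ⟨fun y hy => (((hd.cdAt hI hy.1).mul ((hs.cdAt hI hy.1).inv (h y hy.1))).congr_of_eventuallyEq
    (Eventually.of_forall fun _ => div_eq_mul_inv _ _)).contDiffWithinAt,
    fun a θ => by simp only [hd.per a θ, hs.per a θ]⟩

/-- **`T ((√(2 v) - r) ν)` at a point is a holomorphic function of the 2-jet of `v`**, and its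
derivative at `v = r² / 2` is `T (d / r * ν)` -/
theorem exists_psi (Z : Zn G Q I K) (h : Op G Q I K 2 T) {r : ℝ × ℝ → ℝ} {ν : ℝ × ℝ → ℂ}
    (hr : Ok I fun y => (r y : ℂ)) (h0 : ∀ y : ℝ × ℝ, y.1 ∈ I → 0 < r y) (hν : Ok I ν) (p : X) :
    ∃ Ψ : (Fin 6 → ℂ) → ℂ, (∀ j, 0 < (j 0).re → ContDiffAt ℂ 1 Ψ j) ∧
      (∀ v, Ok I v → (∀ y : ℝ × ℝ, y.1 ∈ I → 0 < (v y).re) →
        (T fun y => (sq2 (v y) - r y) * ν y).1 p = Ψ (jet v (cr G Q p))) ∧
      ∀ d, Ok I d → fderiv ℂ Ψ (jet (vS r) (cr G Q p)) (jet d (cr G Q p)) =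
        (T fun y => d y / r y * ν y).1 p := by
  have hne : ∀ y : ℝ × ℝ, y.1 ∈ I → (r y : ℂ) ≠ 0 := fun y hy => by exact_mod_cast (h0 y hy).ne'
  by_cases hp : p ∈ K
  swap
  · exact ⟨fun _ => 0, fun _ _ => contDiffAt_const,
      fun v hv h1 => h.sp (((ok_sq2 Z.opn hv h1).sub hr).mul hν) p hp,
      fun d hd => by rw [h.sp ((ok_div Z.opn hd hr hne).mul hν) p hp]; simp⟩
  obtain ⟨L, hL⟩ := op_jet Z h p
  have hq := Z.mem p hp
  have r2 := hr.cdAt' Z.opn hq 2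
  have n2 := hν.cdAt' Z.opn hq 2
  set L' := L ∘L jmL (jet ν (cr G Q p)) with hL'
  have hL2 : ∀ g, Ok I g → (T fun y => g y * ν y).1 p = L' (jet g (cr G Q p)) := fun g hg => by
    rw [hL _ (hg.mul hν), jet_mul (hg.cdAt' Z.opn hq 2) n2, jm_comm]; rfl
  refine ⟨fun j => L' (Sq j - jet (fun y => (r y : ℂ)) (cr G Q p)),
    fun j hj => L'.contDiff.contDiffAt.comp j ((cd_Sq hj).sub contDiffAt_const), fun v hv h1 => ?_,
    fun d hd => ?_⟩
  · have v2 := hv.cdAt' Z.opn hq 2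
    rw [hL2 _ ((ok_sq2 Z.opn hv h1).sub hr), jet_sub (cd_sq2 (n := 2) v2 (h1 _ hq)) r2,
      jet_sq2 v2 (h1 _ hq)]
  · have r3 : ContDiffAt ℝ 2 r (cr G Q p) := Complex.reCLM.contDiff.contDiffAt.comp _ r2
    rw [hL2 _ (ok_div Z.opn hd hr hne), ← fd_Sq_vS r3 (h0 _ hq) (hd.cdAt' Z.opn hq 2)]
    exact congrArg (fun T : (Fin 6 → ℂ) →L[ℂ] ℂ => T _) (L'.hasFDerivAt.comp _
      ((diff_Sq (j := jet (vS r) (cr G Q p)) (re_vS (h0 _ hq))).hasFDerivAt.sub_const _)).fderiv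

end Crest.Agent.N250.Lp

end
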