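import Crest.Agent.N250.R0.Core
import Crest.Agent.N250.Lp.Psi
import Crest.Agent.N250.Lp.Rot
import Crest.Agent.N250.Ch.Inst
import Crest.Agent.N250.Ec.Tube
import Crest.Agent.N250.Sw.Pg
import Crest.Agent.N250.Ro.Rot
import Crest.Agent.N250.Lg.Jac

/-!
# Row 250 (helper27): the linearised source and the lifted Jacobi fields of the glued system
-/

set_option autoImplicit false
open MeasureTheory Set Filter Topology
open scoped ContDiff InnerProductSpace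
open Crest.GeometryTopology.MCF

noncomputable section

namespace Crest.Agent.N250.Lp

open Po WS Wr EC R0 Gc

variable {S : Mv} (T : St S) (j : Fin T.p) {q : ℝ × ℝ} {d : ℝ × ℝ → ℂ} {I : Set ℝ}

/-! ### the chart -/

theorem st_psi (hq : T.e.R < q.1) : T.ψ j q = Ec.psi T.e j q :=
  Subtype.ext ((T.hψ j q hq).trans (Ec.psi_val hq).symm)

theorem st_ev (hq : T.e.R < q.1) : ∀ᶠ y in 𝓝 q, T.e.R < y.1 := (Ec.isOpen_half _).mem_nhds hq

theorem st_ca (hq : T.e.R < q.1) : ContinuousAt (T.ψ j) q :=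
  (Ec.ca_psi hq).congr ((st_ev T hq).mono fun _ hy => (st_psi T j hy).symm)

theorem st_pl (hq : T.e.R < q.1) : Pl T.G (T.ψ j) (T.e.Q j) (T.e.r j) q :=
  ⟨(st_ev T hq).mono fun _ hy => st_ca T j hy, (Ec.cd_r hq).of_le (WithTop.coe_le_coe.2 (le_top : (2 : ℕ∞) ≤ ⊤)),
    Ec.r_pos _ _ hq, (st_ev T hq).mono fun y hy => T.hψ j y hy⟩


theorem st_nu (hq : T.e.R < q.1) : T.nu j q = nom T.G (T.ψ j) (T.e.Q j) q := by
  rw [nom_eq, St.nu, ← Ec.psi_val hq, Ec.wv_psi hq, ← st_psi T j hq, div_eq_inv_mul,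
    ← real_inner_smul_right, smul_fr, mul_zero, inv_mul_cancel₀ (Ec.r_pos _ _ hq).ne']
  rfl

theorem st_tau (hq : T.e.R < q.1) :
    tau T.G (T.ψ j) (T.e.Q j) (T.e.r j) q = T.rS j q / T.nu j q := by rw [st_nu T j hq]; rfl


theorem st_r_ne (hq : T.e.R < q.1) : T.rS j q ≠ 0 := (st_pl T j hq).ne

theorem one_le_tau (hq : T.e.R < q.1) : 1 ≤ ‖tau T.G (T.ψ j) (T.e.Q j) (T.e.r j) q‖ := by
  have h := st_pl T j hq
  have e := congrArg norm h.tau_sq
  rw [h.QC_eq, norm_pow, Complex.norm_real, Real.norm_of_nonneg (by positivity)] at e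
  have := (T.e.near j q hq).1
  exact (one_le_sq_iff₀ (norm_nonneg _)).1 (by
    rw [e]; nlinarith [sq_nonneg (T.e.r j q * d1 (T.e.r j) q), sq_nonneg (d2 (T.e.r j) q)])

theorem ok_rS (hI : I ⊆ Ioi T.e.R) : Ok I (T.rS j) :=
  ⟨fun _ hy => (cd_ofReal (Ec.cd_r (hI hy.1))).contDiffWithinAt,
    fun s θ => congrArg Complex.ofReal (T.e.per j s θ)⟩

theorem cd_st {F : Type} [NormedAddCommGroup F] [NormedSpace ℝ F] {f : S.sl 0 → F}
    (hf : T.G.M.Sm f) (hq : T.e.R < q.1) : ContDiffAt ℝ ∞ (fun y => f (T.ψ j y)) q :=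
  Cj.cd_map (n := ⊤) hf (st_ca T j hq)
    ((contDiffAt_pX (Ec.cd_r hq)).congr_of_eventuallyEq (st_pl T j hq).eq)

theorem ok_nu (hI : I ⊆ Ioi T.e.R) : Ok I (T.nu j) := by
  refine ⟨fun q hq => ContDiffAt.contDiffWithinAt ?_, fun s θ => ?_⟩
  · have h := hI hq.1
    refine (((cd_ofReal (Ec.cd_r h)).inv (st_r_ne T j h)).mul
      (cd_st T j (dot (Om T.G (T.e.Q j)) T.G.SC.n).2 h)).congr_of_eventuallyEq
      ((st_ev T h).mono fun y hy => ?_)
    simp only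
    rw [Cj.dot_val, val_Om (T.hψ j y hy), dot_comm, dot_frC_right, st_nu T j hy]
    exact (inv_mul_cancel_left₀ (st_r_ne T j hy) _).symm
  · simp only [St.nu, Ec.per_pX (Ec.per_r T.e j) s θ, T.e.per j s θ]

theorem cr_st {F : Type} {g : ℝ × ℝ → F} (hg : Per g) (hq : T.e.R < q.1) :
    g (cr T.G (T.e.Q j) (T.ψ j q)) = g q := by
  rw [st_psi T j hq]; exact Ec.crd_psi hg hq

theorem st_cr {a : ℝ} (ha : T.e.R < a) {p : S.sl 0} (hp : p ∈ Kh T.P j a) :
    T.ψ j (cr T.G (T.e.Q j) p) = p := by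
  rw [st_psi T j (by rw [cr_fst]; exact ha.trans_le hp.1)]
  exact Ec.psi_crd T.P.shr.st p (Kh_tube ha hp)

theorem cu_eq (a b : ℝ) : T.cu j a b = T.P.chiR j (T.R + a) (T.R + b) := rfl

theorem cu_st (hq : T.e.R < q.1) (a b : ℝ) :
    (T.cu j a b).1 (T.ψ j q) = st (T.R + a) (T.R + b) q.1 := by
  rw [st_psi T j hq]; exact Ec.chi_psi hq _ _

theorem R_lt {a : ℝ} (ha : -7 < a) : T.e.R < T.R + a := by linarith [T.hR]

theorem R_lt' : T.e.R < T.R := by linarith [T.hR]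

theorem ze_tube {a b c : ℝ} (ha : -7 < a) (h : a < b) (hc : T.e.R < c) {p : S.sl 0}
    (hp : p ∈ Kh T.P j c) : (T.ze a b).1 p = 1 - st (T.R + a) (T.R + b) (xi T.e j p) :=
  (zeta_tube T.P.shr.st (p := (p, 0)) (R_lt T ha) (by linarith) p.2 (Kh_tube hc hp)).trans
    (congrArg (1 - ·) (chiR_val hc hp _ _))

/-! ### the linearised source -/

/-- the derivative of `gE` -/
def gL (d : ℝ × ℝ → ℂ) (q : ℝ × ℝ) : ℂ := d q / T.rS j q * T.nu j q

/-- the operator behind `sE` -/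
def sO (g : ℝ × ℝ → ℂ) : T.G.SmC :=
  T.G.oR T.G.ρ * (T.G.SC.LL (T.G.oR T.χ * lift T.G (T.e.Q j) (T.G.oR (T.κ j)) g) -
    T.G.oR T.χ' * T.G.SC.LL (lift T.G (T.e.Q j) (T.G.oR (T.κ j)) g))


/-- the linearised source -/
def sL (d : ℝ × ℝ → ℂ) : T.G.SmC := sO T j (gL T j d)

theorem gL_eq (hq : T.e.R < q.1) : gL T j d q = d q / tau T.G (T.ψ j) (T.e.Q j) (T.e.r j) q := by
  rw [st_tau T j hq, gL, div_div_eq_mul_div, div_mul_eq_mul_div]

theorem ok_gL (ho : IsOpen I) (hI : I ⊆ Ioi T.e.R) (hd : Ok I d) : Ok I (gL T j d) :=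
  (ok_div ho hd (ok_rS T j hI) fun _ hy => st_r_ne T j (hI hy)).mul (ok_nu T j hI)



/-- the zone of the lift -/
abbrev Kκ : Set (S.sl 0) := Kc T.P j (T.R + 1 / 20) (T.R + 9 / 10)

theorem sp_κ : Sp (Kκ T j) (T.G.oR (T.κ j)) :=
  sp_bump (R_lt T (by norm_num)) (by linarith) (by linarith)

theorem zn_κ (ho : IsOpen I) (h : Icc (T.R + 1 / 20) (T.R + 9 / 10) ⊆ I) :
    Zn T.G (T.e.Q j) I (Kκ T j) := zn_Kc (R_lt T (by norm_num)) ho h




/-! ### lifts on the whole tube -/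

/-- the lift of `d / τ` with the cut-off `0 | 1` at `R + a | R + b` -/
def Pc (a b : ℝ) (d : ℝ × ℝ → ℂ) : T.G.SmC := lift T.G (T.e.Q j) (T.G.oR (T.cu j a b)) (gL T j d)

/-- the far part of the field -/
abbrev Ph (d : ℝ × ℝ → ℂ) : T.G.SmC := Pc T j (1 / 3) (2 / 3) d

section Pc

variable {a b c : ℝ} (hc : T.e.R ≤ c) (ha : c < T.R + a) (hab : a < b) (hd : Ok (Ioi c) d)
include hc ha hab hd

theorem Pc_apply (p : S.sl 0) :
    (Pc T j a b d).1 p = (T.cu j a b).1 p * gL T j d (cr T.G (T.e.Q j) p) :=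
  (zn_Kh (hc.trans_lt ha) isOpen_Ioi fun _ hx => ha.trans_le hx).lift_apply
    (sp_chiR (by linarith)) (ok_gL T j isOpen_Ioi (Ioi_subset_Ioi hc) hd) p

omit hc ha hd in
theorem sp_Pc : Sp (Kh T.P j (T.R + a)) (Pc T j a b d) := Sp.lift (sp_chiR (by linarith)) _

theorem Pc_st (hq : T.e.R < q.1) :
    (Pc T j a b d).1 (T.ψ j q) = st (T.R + a) (T.R + b) q.1 * gL T j d q := by
  rw [Pc_apply T j hc ha hab hd, cu_st T j hq,
    cr_st T j (ok_gL T j isOpen_Ioi (Ioi_subset_Ioi hc) hd).per hq]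

theorem tau_Pc (hq : T.e.R < q.1) : tau T.G (T.ψ j) (T.e.Q j) (T.e.r j) q *
    (Pc T j a b d).1 (T.ψ j q) = st (T.R + a) (T.R + b) q.1 * d q := by
  rw [Pc_st T j hc ha hab hd hq, gL_eq T j hq, mul_left_comm,
    mul_div_cancel₀ _ (st_pl T j hq).tau_ne]

theorem LL_Pc (hq : T.R + b < q.1) : tau T.G (T.ψ j) (T.e.Q j) (T.e.r j) q *
    (T.G.SC.LL (Pc T j a b d)).1 (T.ψ j q) = linEL (T.vS j) d q := by
  have h : T.e.R < T.R + b := by linarith
  refine ((st_pl T j (h.trans hq)).linpol _ ?_).symm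
  filter_upwards [(Ec.isOpen_half _).mem_nhds hq] with y hy
  rw [tau_Pc T j hc ha hab hd (h.trans hy), st_one (by linarith) (le_of_lt hy)]
  simp

theorem pg_Pc (hg : ∃ (C : ℝ) (N : ℕ), ∀ q : ℝ × ℝ, c < q.1 → ‖d q‖ ≤ C * q.1 ^ N) :
    T.G.PG (Pc T j a b d).1 := by
  obtain ⟨C, N, hg⟩ := hg
  refine Geo.pg_of (C := |C|) (b := N) fun p => ?_
  have w := T.G.w_pos p
  by_cases hp : p ∈ Kh T.P j (T.R + a)
  swap
  · rw [sp_Pc T j hab p hp, norm_zero]; positivity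
  have h1 : c < (cr T.G (T.e.Q j) p).1 := by rw [cr_fst]; exact ha.trans_le hp.1
  have h2 := hc.trans_lt h1
  have h3 : (cr T.G (T.e.Q j) p).1 ≤ 1 + T.G.S.x2.1 p := by
    rw [cr_fst, show T.G.S.x2.1 p = ‖(p : E)‖ ^ 2 from mv_x2 T.P.shr.reg p]
    nlinarith [abs_xi_le (e := T.e) j p, le_abs_self (xi T.e j p), sq_nonneg (‖(p : E)‖ - 1)]
  have h4 : 0 ≤ (cr T.G (T.e.Q j) p).1 := by linarith [R_pos T.e]
  rw [Pc_apply T j hc ha hab hd, gL_eq T j h2, norm_mul, norm_div, Complex.norm_real]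
  calc _ ≤ 1 * ‖d (cr T.G (T.e.Q j) p)‖ :=
        mul_le_mul (abs_le.2 ⟨by linarith [chi_nonneg (e := T.e) j (T.R + a) (T.R + b) p],
          chi_le_one j _ _ _⟩) (div_le_self (norm_nonneg _) (one_le_tau T j h2)) (by positivity)
          zero_le_one
    _ ≤ |C| * (cr T.G (T.e.Q j) p).1 ^ N := by
        rw [one_mul]
        exact (hg _ h1).trans (mul_le_mul_of_nonneg_right (le_abs_self C) (by positivity))
    _ ≤ _ := by gcongr

end Pc

theorem ok_of_jac {v : ℝ × ℝ → ℂ} {c : ℝ} (h : Lg.Jac v c d) : Ok (Ioi c) d := ⟨h.sm, h.per⟩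

/-- **the linearised source of a Jacobi field is `-ρ LL` of its far part** -/
theorem sL_eq (hd : Ok (Ioi T.R) d) (he : ∀ q : ℝ × ℝ, T.R < q.1 → linEL (T.vS j) d q = 0) :
    sL T j d = -(T.G.oR T.G.ρ * T.G.SC.LL (Ph T j d)) := by
  have hc := (R_lt' T).le
  have h20 : T.e.R < T.R + 1 / 20 := R_lt T (by norm_num)
  have Z := zn_κ T j (I := Ioi T.R) isOpen_Ioi fun x hx => lt_of_lt_of_le (by linarith) hx.1
  have hg := ok_gL T j isOpen_Ioi (Ioi_subset_Ioi hc) hd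
  set U := lift T.G (T.e.Q j) (T.G.oR (T.κ j)) (gL T j d) with hU
  set F := Pc T j (1 / 20) (1 / 10) d with hF
  have vU : ∀ p, U.1 p = ((T.cu j (1 / 20) (1 / 10)).1 p * (1 - (T.cu j (2 / 3) (9 / 10)).1 p) : ℝ) *
      gL T j d (cr T.G (T.e.Q j) p) := fun p => Z.lift_apply (sp_κ T j) hg p
  have vF := Pc_apply T j hc (a := 1 / 20) (b := 1 / 10) (by linarith) (by norm_num) hd
  have vP := Pc_apply T j hc (a := 1 / 3) (b := 2 / 3) (by linarith) (by norm_num) hd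
  have e1 : T.G.oR T.χ * U = F - Ph T j d := T.G.extC fun p => by
    change (T.χ.1 p : ℂ) * U.1 p = F.1 p - (Ph T j d).1 p
    rw [vU, vF, vP, ← mul_assoc, ← sub_mul]
    congr 1
    norm_cast
    by_cases hp : p ∈ Kh T.P j (T.R + 1 / 20)
    · rw [ze_tube T j (by norm_num) (by norm_num) h20 hp]
      simp only [cu_eq, chiR_val h20 hp]
      rcases le_total (xi T.e j p) (T.R + 1 / 3) with h1 | h1
      · rw [st_zero (a := T.R + 1 / 3) (by linarith) h1,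
          st_zero (a := T.R + 2 / 3) (by linarith) (by linarith)]
        ring
      · rw [st_one (a := T.R + 1 / 20) (by linarith) (by linarith)]
        rcases le_total (xi T.e j p) (T.R + 2 / 3) with h2 | h2
        · rw [st_zero (a := T.R + 2 / 3) (by linarith) h2]; ring
        · rw [st_one (a := T.R + 1 / 3) (by linarith) h2]; ring
    · rw [cu_eq, cu_eq T j (1 / 3), chiR_zero (by linarith) hp,
        chiR_zero (a := T.R + 1 / 3) (by linarith) fun h => hp ⟨by linarith [h.1], h.2⟩]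
      ring
  have e2 : T.G.oR T.χ' * T.G.SC.LL U = T.G.SC.LL F := T.G.extC fun p => by
    change (T.χ'.1 p : ℂ) * (T.G.SC.LL U).1 p = _
    by_cases hp : p ∈ Kh T.P j (T.R + 1 / 20)
    swap
    · have z : ∀ f : T.G.SmC, Sp (Kh T.P j (T.R + 1 / 20)) f → (T.G.SC.LL f).1 p = 0 := fun f hf => by
        rw [LL_congr (g := 0) (hf.ev closed_Kh hp), Mov.LL_zero T.G.dsC]; rfl
      rw [z U (((sp_κ T j).mono fun _ h => h.1).lift _), z F (sp_Pc T j (by norm_num)), mul_zero]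
    have l1 : xi T.e j p < T.R + 2 / 3 → (T.G.SC.LL U).1 p = (T.G.SC.LL F).1 p := fun h =>
      LL_congr ((cont_xi.continuousAt.eventually (gt_mem_nhds h)).mono fun y hy => by
        rw [vU, vF, show (T.cu j (2 / 3) (9 / 10)).1 y = 0 from
          chi_zero_of_le (by linarith) (le_of_lt hy), sub_zero, mul_one])
    have l2 : T.R + 1 / 10 < xi T.e j p → (T.G.SC.LL F).1 p = 0 := fun h => by
      have h1 : T.R + 1 / 10 < (cr T.G (T.e.Q j) p).1 := by rwa [cr_fst]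
      have := LL_Pc T j hc (a := 1 / 20) (by linarith) (by norm_num) hd h1
      rw [he _ (by linarith), st_cr T j h20 hp] at this
      exact (mul_eq_zero.1 this).resolve_left (st_pl T j (by linarith)).tau_ne
    rw [ze_tube T j (by norm_num) (by norm_num) h20 hp]
    rcases le_or_gt (xi T.e j p) (T.R + 1 / 10) with h1 | h1
    · rw [st_zero (by linarith) h1, l1 (by linarith)]; simp
    rcases lt_or_ge (xi T.e j p) (T.R + 2 / 3) with h2 | h2
    · rw [l1 h2, l2 h1, mul_zero]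
    · rw [st_one (by linarith) (by linarith), l2 h1]; simp
  rw [sL, sO, ← hU, e1, e2, Mov.LL_sub T.G.dsC]
  ring

/-- the constraint functions do not see the far tubes -/
theorem ipC_zero (F : Fa T) (k : F.I) {a : ℝ} (ha : T.R - 2 < a) {f : T.G.SmC}
    (hf : Sp (⋃ j, Kh T.P j a) f) : T.G.ipC (F.φ k) f = 0 := by
  refine integral_eq_zero_of_ae (ae_of_all _ fun p => ?_)
  by_cases hp : p ∈ ⋃ j, Kh T.P j a
  · obtain ⟨i, hi⟩ := mem_iUnion.1 hp
    have : (F.φ k).1 p = 0 := image_eq_zero_of_notMem_tsupport fun h =>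
      (F.supp k p h).2 i (Kh_tube' (by linarith [T.hR]) ha hi)
    simp [this]
  · simp [hf p hp]

theorem ipC_Pc (F : Fa T) (k : F.I) {a b : ℝ} (ha : -2 < a) (hab : a < b) :
    T.G.ipC (F.φ k) (Pc T j a b d) = 0 :=
  ipC_zero T F k (a := T.R + a) (by linarith) ((sp_Pc T j hab).mono
    (subset_iUnion (fun i => Kh T.P i (T.R + a)) j))

theorem Pc_low {a b : ℝ} (hab : a < b) (hq : T.e.R < q.1) (h : q.1 < T.R + a) :
    (Pc T j a b d).1 (T.ψ j q) = 0 := sp_Pc T j hab _ fun hp => by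
  have := hp.1
  rw [st_psi T j hq, Ec.xi_psi hq] at this
  linarith

theorem not_Kh {i : Fin T.p} (hi : i ≠ j) {a : ℝ} (ha : T.e.R < a) (hq : T.e.R < q.1) :
    T.ψ j q ∉ Kh T.P i a := fun hp => by
  rw [st_psi T j hq] at hp
  exact (Ec.psi_off T.P.shr.st hi ha hq).elim (not_lt.2 hp.1) (not_lt.2 hp.2)

theorem Pc_ne {i : Fin T.p} (hi : i ≠ j) {a b : ℝ} (ha : -7 < a) (hab : a < b) (hq : T.e.R < q.1) :
    (Pc T i a b d).1 (T.ψ j q) = 0 := sp_Pc T i hab _ (not_Kh T j hi (R_lt T ha) hq)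

/-! ### the far part of a Jacobi field -/

theorem Ph_l2 (h : Lg.Jac (T.vS j) T.R d) : T.G.gC (Ph T j d) ≠ ⊤ :=
  (pg_Pc T j (R_lt' T).le (by linarith) (by norm_num) (ok_of_jac h) h.gr).gC

theorem Ph_sL (h : Lg.Jac (T.vS j) T.R d) : sL T j d = -(T.G.oR T.G.ρ * T.G.SC.LL (Ph T j d)) :=
  sL_eq T j (ok_of_jac h) h.eq

theorem Ph_ip (F : Fa T) (k : F.I) : T.G.ipC (F.φ k) (Ph T j d) = 0 :=
  ipC_Pc T j F k (by norm_num) (by norm_num)

theorem Ph_low (i : Fin T.p) (hq : T.e.R < q.1) (h : q.1 < T.R + 1 / 3) :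
    (Ph T j d).1 (T.ψ i q) = 0 := by
  by_cases hi : j = i
  · subst hi; exact Pc_low T j (by norm_num) hq h
  · exact Pc_ne T i hi (by norm_num) (by norm_num) hq

theorem Ph_bd (i : Fin T.p) (θ : ℝ) : (Ph T j d).1 (T.ψ i (T.R, θ)) = 0 :=
  Ph_low T j i (R_lt' T) (by simp)

/-! ### the rotation fields -/

theorem m0_eq (f : Fin 3 → Fin 3 → ℂ) (β : Fin 2 → ℂ) : Ro.m0 f β = tilt f β :=
  funext fun _ => funext fun _ => by simp only [Ro.m0, tilt]; ring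

theorem dot_yy {X : Type} [TopologicalSpace X] [MeasurableSpace X] {G : Geo X} {J κ : Type}
    [Fintype J] [Fintype κ] (D : Nq.Dt G J κ) (M : Nq.Mt J) :
    dot (D.yy M) G.SC.n = ∑ i, G.oR (D.χ i) * JT G (M i) := by
  simp only [dot, Nq.Dt.yy, Nq.Dt.mv, JT, Finset.sum_mul, Finset.mul_sum, map_mul]
  rw [Finset.sum_comm]
  refine Finset.sum_congr rfl fun i _ => Finset.sum_congr rfl fun a _ =>
    Finset.sum_congr rfl fun b _ => ?_
  rw [smul_mul_assoc, mul_smul_comm, mul_assoc]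
  rfl

theorem pg_JT {X : Type} [TopologicalSpace X] [MeasurableSpace X] {G : Geo X}
    (M : Fin 3 → Fin 3 → ℂ) : G.PG (JT G M).1 :=
  Geo.pg_sumC _ fun a _ => Geo.pg_sumC _ fun b _ =>
    ((Geo.pg_x b).oR.mulC (Geo.pg_n a).oR).smulC _

/-- the cut-off rotation field -/
def Jh (β : T.Bt) : T.G.SmC :=
  ∑ i, T.G.oR (T.χr i) * JT T.G (tilt (Cj.fQ (T.e.Q i)) fun l => β (i, l))

theorem pg_Jh (β : T.Bt) : T.G.PG (Jh T β).1 :=
  Geo.pg_sumC _ fun i _ => (Geo.pg_bdd (C := 1) fun p => abs_le.2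
    ⟨le_trans (by norm_num) (chi_nonneg (e := T.e) i (T.R + -3 / 2) (T.R + -1) p),
      chi_le_one i _ _ _⟩ : T.G.PG (T.χr i).1).oR.mulC (pg_JT _)

theorem Jh_apply (β : T.Bt) (p : S.sl 0) : (Jh T β).1 p =
    ∑ i, ((T.χr i).1 p : ℂ) * (JT T.G (tilt (Cj.fQ (T.e.Q i)) fun l => β (i, l))).1 p :=
  map_sum (Cj.ev T.G p) _ _

theorem sp_Jh (β : T.Bt) : Sp (⋃ j, Kh T.P j (T.R + -3 / 2)) (Jh T β) := fun p hp => by
  rw [Jh_apply]
  refine Finset.sum_eq_zero fun i _ => ?_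
  rw [show (T.χr i).1 p = 0 from chiR_zero (by linarith) fun h => hp (mem_iUnion.2 ⟨i, h⟩)]
  simp

theorem ipC_Jh (F : Fa T) (k : F.I) (β : T.Bt) : T.G.ipC (F.φ k) (Jh T β) = 0 :=
  ipC_zero T F k (by linarith) (sp_Jh T β)

theorem tau_Jh (β : T.Bt) (hq : T.e.R < q.1) : tau T.G (T.ψ j) (T.e.Q j) (T.e.r j) q *
    (Jh T β).1 (T.ψ j q) = st (T.R + -3 / 2) (T.R + -1) q.1 * dR (T.e.r j) (fun l => β (j, l)) q := by
  rw [Jh_apply, Finset.sum_eq_single j (fun i _ hi => by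
    rw [show (T.χr i).1 (T.ψ j q) = 0 from
      chiR_zero (by linarith) (not_Kh T j hi (R_lt T (by norm_num)) hq)]
    simp) (by simp), cu_st T j hq, mul_left_comm, (st_pl T j hq).tau_tilt]

end Crest.Agent.N250.Lp

end
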